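import Mathlib.RingTheory.PowerSeries.Inverse
import Mathlib.RingTheory.PowerSeries.Order
import Mathlib.RingTheory.Nilpotent.Basic
import Mathlib.RingTheory.Ideal.Quotient.Nilpotent
import Mathlib.Algebra.TrivSqZeroExt.Basic

/-!
# P241, upper bound: the algebra of the cyclic step

`core`: let `B` be a commutative ring, `𝔪`, `I`, `J` ideals, `J` nilpotent, and `g`, `z` power
series whose coefficients below `D`, resp. `E`, are in `J` and whose coefficients at `D`, `E` are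
units, `E < D`, and `g = v z + z² h + ι` with `ι` in `I[[X]]`. Suppose that `z^c` kills the kernel of
`g` on `𝔪[X] / X^m` for every `m`. Then `v^c 𝔪 ≤ I 𝔪`. (No dependence on the nilpotency
exponent of `J`.)
-/

open PowerSeries

namespace Vale.Agent.P241.H373

variable {B : Type*} [CommRing B]

/-- the ideal of the power series with coefficients in an ideal -/
def ser (𝔪 : Ideal B) : Ideal B⟦X⟧ where
  carrier := {x | ∀ i, coeff i x ∈ 𝔪}
  zero_mem' := fun i => by simp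
  add_mem' := fun {x y} hx hy i => by
    rw [map_add]
    exact 𝔪.add_mem (hx i) (hy i)
  smul_mem' := fun a x hx i => by
    rw [smul_eq_mul, coeff_mul]
    exact 𝔪.sum_mem fun q _ => 𝔪.mul_mem_left _ (hx q.2)

lemma mem_ser {𝔪 : Ideal B} {x : B⟦X⟧} : x ∈ ser 𝔪 ↔ ∀ i, coeff i x ∈ 𝔪 := Iff.rfl

lemma C_mem_ser {𝔪 : Ideal B} {f : B} (hf : f ∈ 𝔪) : C f ∈ ser 𝔪 := fun i => by
  rw [coeff_C]
  split_ifs
  · exact hf
  · exact 𝔪.zero_mem

lemma mul_mem_ser {𝔪 𝔫 : Ideal B} {x y : B⟦X⟧} (hx : x ∈ ser 𝔪) (hy : y ∈ ser 𝔫) :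
    x * y ∈ ser (𝔪 * 𝔫) := fun i => by
  rw [coeff_mul]
  exact (𝔪 * 𝔫).sum_mem fun q _ => Ideal.mul_mem_mul (hx q.1) (hy q.2)

lemma pow_mem_ser {𝔪 : Ideal B} {x : B⟦X⟧} (hx : x ∈ ser 𝔪) (n : ℕ) : x ^ n ∈ ser (𝔪 ^ n) := by
  induction n with
  | zero => simp [mem_ser]
  | succ n ih =>
    rw [pow_succ, pow_succ]
    exact mul_mem_ser ih hx

lemma ser_bot {x : B⟦X⟧} (hx : x ∈ ser (⊥ : Ideal B)) : x = 0 := by
  ext i
  simpa using hx i

/-- the part of a power series from degree `D` on, divided by `X^D` -/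
noncomputable def tail (D : ℕ) (g : B⟦X⟧) : B⟦X⟧ := mk fun i => coeff (i + D) g

lemma coeff_tail (D i : ℕ) (g : B⟦X⟧) : coeff i (tail D g) = coeff (i + D) g := coeff_mk _ _

lemma coeff_X_pow_mul_of_le {D i : ℕ} (h : D ≤ i) (t : B⟦X⟧) :
    coeff i ((X : B⟦X⟧) ^ D * t) = coeff (i - D) t := by
  conv_lhs => rw [← Nat.sub_add_cancel h, coeff_X_pow_mul]

lemma coeff_X_pow_mul_of_lt {D i : ℕ} (h : i < D) (t : B⟦X⟧) :
    coeff i ((X : B⟦X⟧) ^ D * t) = 0 := by
  rw [coeff_X_pow_mul', if_neg (by omega)]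

lemma X_pow_mul_cancel {D : ℕ} {s t : B⟦X⟧} (h : (X : B⟦X⟧) ^ D * s = X ^ D * t) : s = t := by
  ext i
  have := congrArg (coeff (i + D)) h
  simpa [coeff_X_pow_mul] using this

lemma sub_tail_mem {J : Ideal B} {D : ℕ} {g : B⟦X⟧} (hg : ∀ i < D, coeff i g ∈ J) :
    X ^ D * tail D g - g ∈ ser J := fun i => by
  rw [map_sub]
  rcases lt_or_ge i D with h | h
  · rw [coeff_X_pow_mul_of_lt h, zero_sub]
    exact J.neg_mem (hg i h)
  · rw [coeff_X_pow_mul_of_le h, coeff_tail, Nat.sub_add_cancel h, sub_self]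
    exact J.zero_mem

lemma isUnit_of_constCoeff {e : B⟦X⟧} (h : IsUnit (coeff 0 e)) : IsUnit e := by
  rw [PowerSeries.isUnit_iff_constantCoeff]
  simpa using h

/-- `g V = X^(D S) ε^S` and `V ≡ X^(D (S-1)) ε^(S-1)` modulo `J`. -/
lemma exists_V {J : Ideal B} {S D : ℕ} (hS : J ^ (S + 1) = ⊥) {g : B⟦X⟧}
    (hg : ∀ i < D, coeff i g ∈ J) :
    ∃ V : B⟦X⟧, g * V = X ^ (D * (S + 1)) * tail D g ^ (S + 1) ∧
      V - X ^ (D * S) * tail D g ^ S ∈ ser J := by
  set e := tail D g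
  set j := X ^ D * e - g with hj
  have hjJ : j ∈ ser J := sub_tail_mem hg
  -- `(g + j)^(S+1) = g * (∑ (g + j)^(S-i) j^i) + j^(S+1)`
  have hgeom : ∀ n : ℕ, g * (∑ i ∈ Finset.range (n + 1), (g + j) ^ (n - i) * j ^ i) =
      (g + j) ^ (n + 1) - j ^ (n + 1) := by
    intro n
    induction n with
    | zero => simp
    | succ n ih =>
      rw [Finset.sum_range_succ]
      have h1 : ∑ i ∈ Finset.range (n + 1), (g + j) ^ (n + 1 - i) * j ^ i =
          (g + j) * ∑ i ∈ Finset.range (n + 1), (g + j) ^ (n - i) * j ^ i := by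
        rw [Finset.mul_sum]
        refine Finset.sum_congr rfl fun i hi => ?_
        rw [Nat.succ_sub (Nat.lt_succ_iff.1 (Finset.mem_range.1 hi)), pow_succ]
        ring
      rw [h1, mul_add, mul_left_comm, ih]
      simp only [Nat.sub_self, pow_zero, one_mul]
      ring
  refine ⟨∑ i ∈ Finset.range (S + 1), (g + j) ^ (S - i) * j ^ i, ?_, ?_⟩
  · rw [hgeom S]
    have h2 : j ^ (S + 1) = 0 := by
      apply ser_bot
      rw [← hS]
      exact pow_mem_ser hjJ _
    rw [h2, sub_zero, hj, add_sub_cancel, mul_pow, ← pow_mul]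
  · rw [Finset.sum_range_succ']
    have h3 : (g + j) ^ (S - 0) * j ^ 0 = X ^ (D * S) * e ^ S := by
      rw [pow_zero, mul_one, Nat.sub_zero, hj, add_sub_cancel, mul_pow, ← pow_mul]
    rw [h3, add_sub_cancel_right]
    refine (ser J).sum_mem fun i _ => ?_
    rw [pow_succ, ← mul_assoc]
    exact Ideal.mul_mem_left _ _ hjJ

/-- **The algebra of the upper bound**, main part. -/
theorem core₀ (𝔪 I J : Ideal B) (S : ℕ) (hS : J ^ S = ⊥) (g z h ι : B⟦X⟧) (v : B) (c D E : ℕ)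
    (hg : g = C v * z + z ^ 2 * h + ι) (hι : ι ∈ ser I)
    (hgJ : ∀ i < D, coeff i g ∈ J) (hgD : IsUnit (coeff D g))
    (hzJ : ∀ i < E, coeff i z ∈ J) (hzE : IsUnit (coeff E z)) (hED : E < D)
    (f : B) (hf : f ∈ 𝔪) (q₀ : B⟦X⟧) (hq₀' : z ^ c * C f = g * q₀) :
    v ^ c * f ∈ I * 𝔪 := by
  have hS' : J ^ (S + 1) = ⊥ := by rw [pow_succ, hS, Submodule.bot_mul]
  obtain ⟨V, hV, hVJ⟩ := exists_V hS' hgJ
  set e := tail D g with he
  have heu : IsUnit e := isUnit_of_constCoeff (by rw [he, coeff_tail, zero_add]; exact hgD)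
  obtain ⟨e', he'⟩ := heu.exists_right_inv
  -- Step 1
  have step : ∀ j : ℕ, ∃ q, ∃ r ∈ ser (I * 𝔪),
      C (v ^ j) * z * C f = (-1) ^ j * z ^ (j + 1) * h ^ j * C f + g * q + r := by
    intro j
    induction j with
    | zero => exact ⟨0, 0, Ideal.zero_mem _, by simp⟩
    | succ j ih =>
      obtain ⟨q, r, hr, hqr⟩ := ih
      have hvz : C v * z = g - z ^ 2 * h - ι := by rw [hg]; ring
      refine ⟨(-1) ^ j * z ^ j * h ^ j * C f + C v * q,
        -((-1) ^ j * z ^ j * h ^ j * (ι * C f)) + C v * r,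
        Ideal.add_mem _ (Ideal.neg_mem_iff _ |>.2
          (Ideal.mul_mem_left _ _ (mul_mem_ser hι (C_mem_ser hf)))) (Ideal.mul_mem_left _ _ hr), ?_⟩
      calc C (v ^ (j + 1)) * z * C f = C v * (C (v ^ j) * z * C f) := by
            rw [pow_succ, map_mul]; ring
        _ = C v * ((-1) ^ j * z ^ (j + 1) * h ^ j * C f + g * q + r) := by rw [hqr]
        _ = (-1) ^ j * z ^ j * h ^ j * (C v * z) * C f + g * (C v * q) + C v * r := by ring
        _ = _ := by rw [hvz]; ring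
  obtain ⟨q₁, r, hr, hqr⟩ := step c
  have hmain : C (v ^ c) * z * C f = g * ((-1) ^ c * z * h ^ c * q₀ + q₁) + r := by
    rw [hqr]
    have : (-1) ^ c * z ^ (c + 1) * h ^ c * C f = (-1) ^ c * z * h ^ c * (z ^ c * C f) := by ring
    rw [this, hq₀']
    ring
  -- Step 2: the residue
  set q := (-1) ^ c * z * h ^ c * q₀ + q₁
  set N := D * (S + 1) - 1 with hN
  have hD : 0 < D := by omega
  have hND : N < D * (S + 1) := by
    have : 0 < D * (S + 1) := Nat.mul_pos hD (Nat.succ_pos _)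
    omega
  set W : B⟦X⟧ := X ^ (D - 1 - E) * (V * e' ^ (S + 1)) with hW
  have hgW : g * W = X ^ (D * (S + 1)) * X ^ (D - 1 - E) := by
    calc g * W = (g * V) * e' ^ (S + 1) * X ^ (D - 1 - E) := by rw [hW]; ring
      _ = X ^ (D * (S + 1)) * (e * e') ^ (S + 1) * X ^ (D - 1 - E) := by rw [hV]; ring
      _ = _ := by rw [he', one_pow, mul_one]
  have hres : v ^ c * f * coeff N (z * W) = coeff N (r * W) := by
    have h1 : C (v ^ c * f) * (z * W) = X ^ (D * (S + 1)) * (X ^ (D - 1 - E) * q) + r * W := by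
      calc C (v ^ c * f) * (z * W) = (C (v ^ c) * z * C f) * W := by rw [map_mul]; ring
        _ = (g * W) * q + r * W := by rw [hmain]; ring
        _ = _ := by rw [hgW]; ring
    have h2 := congrArg (coeff N) h1
    rwa [coeff_C_mul, map_add, coeff_X_pow_mul_of_lt hND, zero_add] at h2
  have hrW : coeff N (r * W) ∈ I * 𝔪 := (Ideal.mul_mem_right _ _ hr : r * W ∈ ser (I * 𝔪)) N
  -- the residue of `z W` is a unit
  have hunit : IsUnit (coeff N (z * W)) := by
    set ζ := tail E z with hζ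
    have hzE' : z - X ^ E * ζ ∈ ser J := by
      have := sub_tail_mem hzJ
      rw [← neg_sub]
      exact Ideal.neg_mem_iff _ |>.2 this
    have h1 : z * W - X ^ N * (ζ * e') ∈ ser J := by
      have h2 : X ^ N = X ^ E * X ^ (D - 1 - E) * (X : B⟦X⟧) ^ (D * S) := by
        rw [← pow_add, ← pow_add]
        congr 1
        rw [hN, mul_add, mul_one]
        omega
      have h3 : z * W - X ^ N * (ζ * e') =
          (z - X ^ E * ζ) * W + X ^ E * ζ * X ^ (D - 1 - E) * e' ^ (S + 1) *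
            (V - X ^ (D * S) * e ^ S) := by
        have h4 : e ^ S * e' ^ (S + 1) = e' := by
          rw [pow_succ, ← mul_assoc, ← mul_pow, he', one_pow, one_mul]
        calc z * W - X ^ N * (ζ * e') = z * W - X ^ N * (ζ * (e ^ S * e' ^ (S + 1))) := by rw [h4]
          _ = _ := by rw [hW, h2]; ring
      rw [h3]
      exact Ideal.add_mem _ (Ideal.mul_mem_right _ _ hzE') (Ideal.mul_mem_left _ _ hVJ)
    have h5 : coeff N (z * W) - coeff N (X ^ N * (ζ * e')) ∈ J := by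
      rw [← map_sub]
      exact h1 N
    have h6 : coeff N ((X : B⟦X⟧) ^ N * (ζ * e')) = coeff 0 ζ * coeff 0 e' := by
      rw [coeff_X_pow_mul_of_le le_rfl, Nat.sub_self, coeff_mul]
      simp
    have h7 : IsUnit (coeff 0 ζ * coeff 0 e') := by
      refine IsUnit.mul ?_ ?_
      · rw [hζ, coeff_tail, zero_add]
        exact hzE
      · have h8 : coeff 0 e * coeff 0 e' = 1 := by
          have := congrArg (coeff 0) he'
          rw [coeff_mul] at this
          simpa using this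
        exact IsUnit.of_mul_eq_one _ (by rw [mul_comm]; exact h8)
    have h9 : IsNilpotent (coeff N (z * W) - coeff 0 ζ * coeff 0 e') := by
      refine ⟨S, ?_⟩
      rw [← h6]
      have := Ideal.pow_mem_pow h5 S
      rwa [hS, Ideal.mem_bot] at this
    have h10 := h9.isUnit_add_left_of_commute h7 (Commute.all _ _)
    rwa [add_sub_cancel] at h10
  obtain ⟨κ, hκ⟩ := hunit
  have : v ^ c * f = coeff N (r * W) * ((κ⁻¹ : Bˣ) : B) := by
    rw [← hres, ← hκ, mul_assoc, Units.mul_inv, mul_one]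
  rw [this]
  exact Ideal.mul_mem_right _ _ hrW

/-- **The algebra of the upper bound**: kernel form of the hypothesis. -/
theorem core (𝔪 I J : Ideal B) (S : ℕ) (hS : J ^ S = ⊥) (g z h ι : B⟦X⟧) (v : B) (c D E : ℕ)
    (hg : g = C v * z + z ^ 2 * h + ι) (hι : ι ∈ ser I)
    (hgJ : ∀ i < D, coeff i g ∈ J) (hgD : IsUnit (coeff D g))
    (hzJ : ∀ i < E, coeff i z ∈ J) (hzE : IsUnit (coeff E z)) (hED : E < D)
    (H : ∀ m, ∀ x ∈ ser 𝔪, X ^ m ∣ g * x → X ^ m ∣ z ^ c * x) :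
    ∀ f ∈ 𝔪, v ^ c * f ∈ I * 𝔪 := by
  intro f hf
  have hS' : J ^ (S + 1) = ⊥ := by rw [pow_succ, hS, Submodule.bot_mul]
  obtain ⟨V, hV, -⟩ := exists_V hS' hgJ
  set e := tail D g with he
  have heu : IsUnit e := isUnit_of_constCoeff (by rw [he, coeff_tail, zero_add]; exact hgD)
  obtain ⟨e', he'⟩ := heu.exists_right_inv
  obtain ⟨q₀, hq₀'⟩ : ∃ q₀, z ^ c * C f = g * q₀ := by
    have hVf : V * C f ∈ ser 𝔪 := Ideal.mul_mem_left _ _ (C_mem_ser hf)
    obtain ⟨t, ht⟩ := H (D * (S + 1)) _ hVf ⟨e ^ (S + 1) * C f, by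
      rw [← mul_assoc, hV]; ring⟩
    refine ⟨e' ^ (S + 1) * t, ?_⟩
    have h2 : (X : B⟦X⟧) ^ (D * (S + 1)) * (e ^ (S + 1) * (z ^ c * C f)) =
        X ^ (D * (S + 1)) * (g * t) := by
      calc (X : B⟦X⟧) ^ (D * (S + 1)) * (e ^ (S + 1) * (z ^ c * C f))
          = (g * V) * (z ^ c * C f) := by rw [hV]; ring
        _ = g * (z ^ c * (V * C f)) := by ring
        _ = X ^ (D * (S + 1)) * (g * t) := by rw [ht]; ring
    have h3 := X_pow_mul_cancel h2
    calc z ^ c * C f = (e * e') ^ (S + 1) * (z ^ c * C f) := by rw [he', one_pow, one_mul]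
      _ = e' ^ (S + 1) * (e ^ (S + 1) * (z ^ c * C f)) := by ring
      _ = g * (e' ^ (S + 1) * t) := by rw [h3]; ring
  exact core₀ 𝔪 I J S hS g z h ι v c D E hg hι hgJ hgD hzJ hzE hED f hf q₀ hq₀'

/-- **The algebra of the upper bound**: the hypothesis is that `z^c 𝔪` is contained in
`g B[[X]] + X^N B[[X]]` for every `N`. -/
theorem core_trunc (𝔪 I J : Ideal B) (S : ℕ) (hS : J ^ S = ⊥) (g z h ι : B⟦X⟧) (v : B)
    (c D E : ℕ)
    (hg : g = C v * z + z ^ 2 * h + ι) (hι : ι ∈ ser I)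
    (hgJ : ∀ i < D, coeff i g ∈ J) (hgD : IsUnit (coeff D g))
    (hzJ : ∀ i < E, coeff i z ∈ J) (hzE : IsUnit (coeff E z)) (hED : E < D)
    (H : ∀ N, ∀ f ∈ 𝔪, ∃ q, ∀ i < N, coeff i (z ^ c * C f) = coeff i (g * q)) :
    ∀ f ∈ 𝔪, v ^ c * f ∈ I * 𝔪 := by
  intro f hf
  have hS' : J ^ (S + 1) = ⊥ := by rw [pow_succ, hS, Submodule.bot_mul]
  obtain ⟨V, hV, -⟩ := exists_V hS' hgJ
  set e := tail D g with he
  have heu : IsUnit e := isUnit_of_constCoeff (by rw [he, coeff_tail, zero_add]; exact hgD)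
  obtain ⟨e', he'⟩ := heu.exists_right_inv
  obtain ⟨q, hqN⟩ := H (D * (S + 1)) f hf
  set t := tail (D * (S + 1)) (z ^ c * C f - g * q) with ht
  have hr : z ^ c * C f - g * q = X ^ (D * (S + 1)) * t := by
    ext i
    rcases lt_or_ge i (D * (S + 1)) with h1 | h1
    · rw [coeff_X_pow_mul_of_lt h1, map_sub, hqN i h1, sub_self]
    · rw [coeff_X_pow_mul_of_le h1, ht, coeff_tail, Nat.sub_add_cancel h1]
  refine core₀ 𝔪 I J S hS g z h ι v c D E hg hι hgJ hgD hzJ hzE hED f hf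
    (q + V * e' ^ (S + 1) * t) ?_
  have h2 : g * (V * e' ^ (S + 1) * t) = X ^ (D * (S + 1)) * t := by
    calc g * (V * e' ^ (S + 1) * t) = (g * V) * e' ^ (S + 1) * t := by ring
      _ = X ^ (D * (S + 1)) * (e * e') ^ (S + 1) * t := by rw [hV]; ring
      _ = _ := by rw [he', one_pow, mul_one]
  rw [mul_add, h2, ← hr]
  ring

end Vale.Agent.P241.H373
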