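import Vale.Agent.P241.H373.UBAlg
import Mathlib.RingTheory.PowerSeries.Substitution
import Mathlib.Algebra.Algebra.Subalgebra.Lattice

/-!
# P241, upper bound: the algebra of the cyclic step for modules over the coefficient ring

* `itr f k` : the `k`-fold composite of the power series `f` (`= [p^k]` for `f = [p]`).
* `ub_module` : the algebraic conclusion for a module `M`.
-/

open PowerSeries Finset

universe u v

namespace Vale.Agent.P241.H373

section Composites

variable {A : Type*} [CommRing A]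

lemma subst_mem_ser {I : Ideal A} {α : A⟦X⟧} (hα : constantCoeff α = 0) {f : A⟦X⟧}
    (hf : f ∈ ser I) : f.subst α ∈ ser I := fun i => by
  rw [coeff_subst' (HasSubst.of_constantCoeff_zero' hα)]
  refine finsum_induction (p := fun x => x ∈ I) I.zero_mem (fun _ _ => I.add_mem) fun d => ?_
  rw [smul_eq_mul]
  exact I.mul_mem_right _ (hf d)

lemma constantCoeff_subst' {α : A⟦X⟧} (hα : constantCoeff α = 0) (f : A⟦X⟧) :
    constantCoeff (f.subst α) = constantCoeff f := by
  have h1 : f = C (constantCoeff f) + X * tail 1 f := by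
    ext i
    rcases i with _ | i
    · simp
    · rw [map_add, coeff_C, if_neg (Nat.succ_ne_zero i), zero_add, coeff_succ_X_mul, coeff_tail]
  have hs := HasSubst.of_constantCoeff_zero' hα
  have h2 : f.subst α = C (constantCoeff f) + α * (tail 1 f).subst α := by
    conv_lhs => rw [h1]
    rw [subst_add hs, subst_mul hs, subst_X hs, subst_C]
    rfl
  rw [h2]
  simp [hα]

/-- the `k`-fold composite -/
noncomputable def itr (f : A⟦X⟧) : ℕ → A⟦X⟧
  | 0 => X
  | k + 1 => f.subst (itr f k)

lemma constantCoeff_itr {f : A⟦X⟧} (hf : constantCoeff f = 0) (k : ℕ) :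
    constantCoeff (itr f k) = 0 := by
  induction k with
  | zero => simp [itr]
  | succ k ih => rw [itr, constantCoeff_subst' ih, hf]

lemma pow_sub_pow_mem {R : Type*} [CommRing R] {I : Ideal R} {a b : R} (h : a - b ∈ I) (n : ℕ) :
    a ^ n - b ^ n ∈ I := by
  obtain ⟨c, hc⟩ := sub_dvd_pow_sub_pow a b n
  rw [hc]
  exact I.mul_mem_right _ h

/-- the leading coefficient of the composites modulo `J` -/
lemma itr_lead {J : Ideal A} {f : A⟦X⟧} (hf0 : constantCoeff f = 0) {P : ℕ}
    (hf : ∀ i < P, coeff i f ∈ J) (k : ℕ) :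
    ∃ e, (∀ i < P ^ k, coeff i (itr f k) ∈ J) ∧ coeff (P ^ k) (itr f k) - coeff P f ^ e ∈ J := by
  induction k with
  | zero =>
    refine ⟨0, fun i hi => ?_, ?_⟩
    · rw [pow_zero, Nat.lt_one_iff] at hi
      subst hi
      simp [itr]
    · simp [itr, coeff_X]
  | succ k ih =>
    obtain ⟨e, h1, h2⟩ := ih
    set α := itr f k with hα
    have hα0 : constantCoeff α = 0 := constantCoeff_itr hf0 k
    have hs := HasSubst.of_constantCoeff_zero' hα0
    have hj₀ : X ^ P * tail P f - f ∈ ser J := sub_tail_mem hf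
    have hj₁ : X ^ (P ^ k) * tail (P ^ k) α - α ∈ ser J := sub_tail_mem h1
    have h3 : (X ^ (P ^ k * P) * (tail (P ^ k) α ^ P * (tail P f).subst α)) - itr f (k + 1) ∈
        ser J := by
      have h4 : (X ^ P * tail P f - f).subst α = α ^ P * (tail P f).subst α - itr f (k + 1) := by
        rw [subst_sub hs, subst_mul hs, subst_pow hs, subst_X hs]
        rfl
      have h5 := subst_mem_ser hα0 hj₀
      rw [h4] at h5
      have h6 := (ser J).mul_mem_right ((tail P f).subst α) (pow_sub_pow_mem hj₁ P)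
      have h7 := (ser J).add_mem h6 h5
      rw [mul_pow, ← pow_mul] at h7
      convert h7 using 1
      ring
    refine ⟨e * P + 1, fun i hi => ?_, ?_⟩
    · have := h3 i
      rw [map_sub, coeff_X_pow_mul_of_lt (by rwa [pow_succ] at hi), zero_sub] at this
      exact neg_mem_iff.1 this
    · have := h3 (P ^ (k + 1))
      rw [map_sub, pow_succ, coeff_X_pow_mul_of_le le_rfl, Nat.sub_self, coeff_zero_eq_constantCoeff,
        map_mul, map_pow, constantCoeff_subst' hα0] at this
      have h8 : constantCoeff (tail (P ^ k) α) = coeff (P ^ k) α := by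
        rw [← coeff_zero_eq_constantCoeff_apply, coeff_tail, zero_add]
      have h9 : constantCoeff (tail P f) = coeff P f := by
        rw [← coeff_zero_eq_constantCoeff_apply, coeff_tail, zero_add]
      rw [h8, h9] at this
      have h10 := J.mul_mem_right (coeff P f) (pow_sub_pow_mem h2 P)
      have h11 := J.sub_mem h10 this
      rw [pow_succ, pow_succ, pow_mul]
      convert h11 using 1
      ring

/-- `f(α) = v α^q + α^(2q) h + ι` if the coefficients of `f` whose index is not divisible by `q`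
are in `I`. -/
lemma subst_split {I : Ideal A} {f : A⟦X⟧} (hf0 : constantCoeff f = 0) {q : ℕ} (hq : 0 < q)
    (hf : ∀ i, ¬ q ∣ i → coeff i f ∈ I) {α : A⟦X⟧} (hα : constantCoeff α = 0) :
    ∃ h, ∃ ι ∈ ser I, f.subst α = C (coeff q f) * α ^ q + (α ^ q) ^ 2 * h + ι := by
  have hs := HasSubst.of_constantCoeff_zero' hα
  set h₀ : A⟦X⟧ := mk fun i => if q ∣ i then coeff (i + 2 * q) f else 0 with hh₀
  set ι₀ : A⟦X⟧ := mk fun i => if q ∣ i then 0 else coeff i f with hι₀
  have hι : ι₀ ∈ ser I := fun i => by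
    rw [hι₀, coeff_mk]
    split_ifs with h
    · exact I.zero_mem
    · exact hf i h
  have hsplit : f = C (coeff q f) * X ^ q + X ^ (2 * q) * h₀ + ι₀ := by
    ext i
    rw [map_add, map_add, coeff_C_mul, coeff_X_pow, hι₀, coeff_mk]
    rcases lt_or_ge i (2 * q) with h1 | h1
    · rw [coeff_X_pow_mul_of_lt h1, add_zero]
      by_cases h2 : q ∣ i
      · obtain ⟨c, rfl⟩ := h2
        rw [if_pos (dvd_mul_right q c), add_zero]
        have hc : c < 2 := by
          by_contra hc
          have : 2 * q ≤ q * c := by rw [mul_comm]; exact Nat.mul_le_mul_left q (not_lt.1 hc)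
          omega
        rcases c with _ | _ | c
        · rw [mul_zero, if_neg (by omega), mul_zero, coeff_zero_eq_constantCoeff_apply, hf0]
        · rw [zero_add, mul_one, if_pos rfl, mul_one]
        · omega
      · rw [if_neg h2, if_neg (fun h => h2 (by rw [h])), mul_zero, zero_add]
    · rw [coeff_X_pow_mul_of_le h1, hh₀, coeff_mk, if_neg (by omega), mul_zero, zero_add,
        Nat.sub_add_cancel h1]
      have h3 : q ∣ i - 2 * q ↔ q ∣ i := by
        rw [Nat.dvd_sub_iff_left h1 (Dvd.intro_left 2 rfl)]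
      by_cases h2 : q ∣ i
      · rw [if_pos (h3.2 h2), if_pos h2, add_zero]
      · rw [if_neg (fun h => h2 (h3.1 h)), if_neg h2, zero_add]
  refine ⟨h₀.subst α, ι₀.subst α, subst_mem_ser hα hι, ?_⟩
  conv_lhs => rw [hsplit]
  rw [subst_add hs, subst_add hs, subst_mul hs, subst_mul hs, subst_pow hs, subst_pow hs,
    subst_X hs, subst_C, ← pow_mul, mul_comm q 2]
  rfl

end Composites

section Modules

/-- An action on `M` factors over a commutative ring which acts faithfully and in which a given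
element `u` that acts bijectively is a unit. -/
lemma exists_commRing {A : Type u} [CommRing A] {M : Type v} [AddCommGroup M] [Module A M] (u : A)
    (hu : Function.Bijective fun m : M => u • m) :
    ∃ (A' : Type v) (_ : CommRing A') (_ : Module A' M) (φ : A →+* A'),
      (∀ (a : A) (m : M), φ a • m = a • m) ∧ IsUnit (φ u) ∧
        ∀ a' : A', (∀ m : M, a' • m = 0) → a' = 0 := by
  let e : M ≃ₗ[A] M := LinearEquiv.ofBijective (LinearMap.lsmul A M u) hu
  let s : Set (Module.End A M) := {(e.symm : M →ₗ[A] M)}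
  have hs : ∀ a ∈ s, ∀ b ∈ s, a * b = b * a := by
    intro a ha b hb
    rw [Set.mem_singleton_iff.1 ha, Set.mem_singleton_iff.1 hb]
  have := Algebra.isMulCommutative_adjoin A hs
  let _ : CommRing (Algebra.adjoin A s) :=
    { (inferInstance : Ring (Algebra.adjoin A s)) with
      mul_comm := fun a b => (inferInstance : IsMulCommutative (Algebra.adjoin A s)).is_comm.comm a b }
  refine ⟨Algebra.adjoin A s, inferInstance, inferInstance, algebraMap A (Algebra.adjoin A s),
    fun a m => ?_, ?_, fun a' h => ?_⟩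
  · rfl
  · refine IsUnit.of_mul_eq_one (⟨_, Algebra.subset_adjoin (Set.mem_singleton _)⟩ :
      Algebra.adjoin A s) ?_
    apply Subtype.ext
    apply LinearMap.ext
    intro m
    exact e.apply_symm_apply m
  · apply Subtype.ext
    apply LinearMap.ext
    intro m
    exact h m

/-- the conclusion for a commutative ring `A` acting on `M`, when `u` is a unit and `J` is
nilpotent in `A` -/
theorem ub_aux {A : Type u} [CommRing A] {M : Type v} [AddCommGroup M] [Module A M] (I J : Ideal A)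
    (S : ℕ) (hS : J ^ S = ⊥) (g z h ι : A⟦X⟧) (v : A) (c D E : ℕ)
    (hg : g = C v * z + z ^ 2 * h + ι) (hι : ι ∈ ser I)
    (hgJ : ∀ i < D, coeff i g ∈ J) (hgD : IsUnit (coeff D g))
    (hzJ : ∀ i < E, coeff i z ∈ J) (hzE : IsUnit (coeff E z)) (hED : E < D)
    (H : ∀ N, ∀ m : M, ∃ x : ℕ → M, ∀ i < N,
      coeff i (z ^ c) • m = ∑ ab ∈ antidiagonal i, coeff ab.1 g • x ab.2)
    (w : ℕ) (hI : ∀ a ∈ I ^ w, ∀ m : M, a • m = 0) (m : M) : v ^ (c * w) • m = 0 := by
  let _ : Module Aᵐᵒᵖ M := Module.compHom M ((RingHom.id A).fromOpposite fun _ _ => mul_comm _ _)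
  have : IsCentralScalar A M := ⟨fun r m => rfl⟩
  let B := TrivSqZeroExt A M
  let 𝔪 : Ideal B := RingHom.ker (TrivSqZeroExt.fstHom A A M).toRingHom
  let φ : A →+* B := TrivSqZeroExt.inlHom A M
  have h𝔪 : ∀ b : B, b ∈ 𝔪 ↔ b = TrivSqZeroExt.inr b.snd := by
    intro b
    rw [RingHom.mem_ker]
    constructor
    · intro h1
      ext
      · exact h1
      · rfl
    · intro h1
      rw [h1]
      rfl
  have hφ : ∀ (a : A) (m : M), φ a * TrivSqZeroExt.inr m = TrivSqZeroExt.inr (a • m) :=
    fun a m => TrivSqZeroExt.inl_mul_inr a m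
  have hser : ∀ (K : Ideal A) (x : A⟦X⟧), x ∈ ser K → PowerSeries.map φ x ∈ ser (K.map φ) := by
    intro K x hx i
    rw [coeff_map]
    exact Ideal.mem_map_of_mem φ (hx i)
  have key := core_trunc 𝔪 (I.map φ) (J.map φ) S
    (by rw [← Ideal.map_pow, hS, Ideal.map_bot]) (PowerSeries.map φ g)
    (PowerSeries.map φ z) (PowerSeries.map φ h) (PowerSeries.map φ ι) (φ v) c D E
    (by rw [hg]; simp) (hser _ _ hι)
    (fun i hi => by rw [coeff_map]; exact Ideal.mem_map_of_mem φ (hgJ i hi))
    (by rw [coeff_map]; exact hgD.map φ)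
    (fun i hi => by rw [coeff_map]; exact Ideal.mem_map_of_mem φ (hzJ i hi))
    (by rw [coeff_map]; exact hzE.map φ) hED
    (by
      intro N f hf
      obtain ⟨x, hx⟩ := H N f.snd
      refine ⟨PowerSeries.mk fun i => TrivSqZeroExt.inr (x i), fun i hi => ?_⟩
      rw [(h𝔪 f).1 hf, coeff_mul_C, ← map_pow, coeff_map, hφ, hx i hi, coeff_mul]
      simp only [coeff_map, coeff_mk, hφ]
      exact map_sum (TrivSqZeroExt.inrHom A M) _ _)
  have key2 : ∀ w : ℕ, ∀ f ∈ 𝔪, φ v ^ (c * w) * f ∈ (I.map φ) ^ w * 𝔪 := by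
    intro w
    induction w with
    | zero =>
      intro f hf
      simpa using hf
    | succ w ih =>
      intro f hf
      rw [Nat.mul_succ, pow_add (φ v), mul_assoc (φ v ^ (c * w))]
      have h1 : ∀ y ∈ I.map φ * 𝔪, φ v ^ (c * w) * y ∈ (I.map φ) ^ (w + 1) * 𝔪 := by
        intro y hy
        refine Submodule.mul_induction_on hy (fun a ha b hb => ?_) (fun a b ha hb => ?_)
        · rw [mul_left_comm, pow_succ' (I.map φ), mul_assoc (I.map φ)]
          exact Ideal.mul_mem_mul ha (ih b hb)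
        · rw [mul_add]
          exact Ideal.add_mem _ ha hb
      exact h1 _ (key f hf)
  have hbot : (I.map φ) ^ w * 𝔪 = ⊥ := by
    rw [eq_bot_iff, ← Ideal.map_pow, Ideal.mul_le]
    intro a ha b hb
    rw [(h𝔪 b).1 hb]
    refine Submodule.span_induction (p := fun a _ => a * TrivSqZeroExt.inr b.snd ∈ (⊥ : Ideal B))
      ?_ (by simp) (fun x y _ _ hx hy => by rw [add_mul]; exact Ideal.add_mem _ hx hy)
      (fun r x _ hx => by rw [smul_eq_mul, mul_assoc]; exact Ideal.mul_mem_left _ _ hx) ha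
    rintro _ ⟨a, ha, rfl⟩
    rw [hφ, hI a ha, TrivSqZeroExt.inr_zero]
    exact Ideal.zero_mem _
  have h1 := key2 w (TrivSqZeroExt.inr m) ((h𝔪 _).2 rfl)
  rw [hbot, Ideal.mem_bot, ← map_pow, hφ] at h1
  exact TrivSqZeroExt.inr_injective (h1.trans (TrivSqZeroExt.inr_zero A).symm)

/-- **The algebra of the upper bound.** `A` acts on `M`, `f ∈ A[[X]]` (the `p`-series) satisfies
`f ≡ v X^q + X^(2q) g(X^q)` modulo `I` and `f ≡ u X^P + ⋯` modulo `I + (v)`, `q < P`; some power of
`I` and some power of `I + (v)` act as zero on `M`, and `u` acts bijectively. If the `d`-th power of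
the `k`-fold composite `α` of `f` maps `M` to `f(α) M[[X]] + X^N M[[X]]` for all `N`, then
`v^(d w) M = 0`, where `w` is the exponent of `I` (and does not depend on the one of `I + (v)`). -/
theorem ub_module {A : Type u} [CommRing A] {M : Type v} [AddCommGroup M] [Module A M]
    (I : Ideal A) (w : ℕ) (hI : ∀ a ∈ I ^ w, ∀ m : M, a • m = 0) (f : A⟦X⟧)
    (hf0 : constantCoeff f = 0) (q P : ℕ) (hq : 0 < q) (hqP : q < P)
    (hfI : ∀ i, ¬ q ∣ i → coeff i f ∈ I)
    (hfJ : ∀ i < P, coeff i f ∈ I ⊔ Ideal.span {coeff q f})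
    (S : ℕ) (hJ : ∀ a ∈ (I ⊔ Ideal.span {coeff q f}) ^ S, ∀ m : M, a • m = 0)
    (hu : Function.Bijective fun m : M => coeff P f • m) (k d : ℕ)
    (H : ∀ N, ∀ m : M, ∃ x : ℕ → M, ∀ i < N,
      coeff i (itr f k ^ d) • m = ∑ ab ∈ antidiagonal i, coeff ab.1 (itr f (k + 1)) • x ab.2)
    (m : M) : coeff q f ^ (d * w) • m = 0 := by
  set J := I ⊔ Ideal.span {coeff q f} with hJdef
  set v := coeff q f with hv
  obtain ⟨A', _, _, φ, hφ, hφu, hfaith⟩ := exists_commRing (M := M) (coeff P f) hu
  -- the leading coefficients of the composites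
  obtain ⟨e, hα1, hα2⟩ := itr_lead hf0 hfJ k
  obtain ⟨e', hg1, hg2⟩ := itr_lead hf0 hfJ (k + 1)
  have hα0 := constantCoeff_itr hf0 k
  obtain ⟨h, ι, hι, hsplit⟩ := subst_split hf0 hq hfI hα0
  set α := itr f k with hα
  have hser : ∀ (K : Ideal A) (x : A⟦X⟧), x ∈ ser K → PowerSeries.map φ x ∈ ser (K.map φ) := by
    intro K x hx i
    rw [coeff_map]
    exact Ideal.mem_map_of_mem φ (hx i)
  have hmap : ∀ (K : Ideal A) (n : ℕ), (∀ a ∈ K ^ n, ∀ m : M, a • m = 0) →
      ∀ b ∈ (K.map φ) ^ n, ∀ m : M, b • m = 0 := by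
    intro K n hK b hb m
    rw [← Ideal.map_pow] at hb
    refine Submodule.span_induction (p := fun b _ => ∀ m : M, b • m = 0)
      ?_ (fun m => zero_smul _ m) (fun x y _ _ hx hy m => by rw [add_smul, hx, hy, add_zero])
      (fun r x _ hx m => by rw [smul_eq_mul, mul_smul, hx, smul_zero]) hb m
    rintro _ ⟨a, ha, rfl⟩ m
    rw [hφ, hK a ha]
  have hS : (J.map φ) ^ S = ⊥ := by
    rw [eq_bot_iff]
    intro b hb
    rw [Ideal.mem_bot]
    exact hfaith b (hmap J S hJ b hb)
  have hnil : ∀ b ∈ J.map φ, IsNilpotent b := fun b hb => ⟨S, by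
    have := Ideal.pow_mem_pow hb S
    rwa [hS, Ideal.mem_bot] at this⟩
  -- `z = α^q`
  have hαtail : X ^ (P ^ k) * tail (P ^ k) α - α ∈ ser J := sub_tail_mem hα1
  have hz : X ^ (P ^ k * q) * tail (P ^ k) α ^ q - α ^ q ∈ ser J := by
    have := pow_sub_pow_mem hαtail q
    rwa [mul_pow, ← pow_mul] at this
  have hz1 : ∀ i < P ^ k * q, coeff i (α ^ q) ∈ J := by
    intro i hi
    have := hz i
    rw [map_sub, coeff_X_pow_mul_of_lt hi, zero_sub] at this
    exact neg_mem_iff.1 this
  have hz2 : coeff (P ^ k * q) (α ^ q) - coeff P f ^ (e * q) ∈ J := by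
    have h1 := hz (P ^ k * q)
    rw [map_sub, coeff_X_pow_mul_of_le le_rfl, Nat.sub_self, coeff_zero_eq_constantCoeff_apply,
      map_pow, ← coeff_zero_eq_constantCoeff_apply, coeff_tail, zero_add] at h1
    have h2 := pow_sub_pow_mem hα2 q
    have h3 := J.sub_mem h2 h1
    rw [pow_mul]
    convert h3 using 1
    ring
  have hunit : ∀ (a : A) (n : ℕ), a - coeff P f ^ n ∈ J → IsUnit (φ a) := by
    intro a n ha
    have h1 := hnil _ (Ideal.mem_map_of_mem φ ha)
    have h2 := h1.isUnit_add_left_of_commute (hφu.pow n) (Commute.all _ _)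
    rwa [map_sub, map_pow, add_sub_cancel] at h2
  have hPk : 0 < P ^ k := Nat.pow_pos (by omega)
  have hres := ub_aux (A := A') (M := M) (I.map φ) (J.map φ) S hS
    (PowerSeries.map φ (itr f (k + 1))) (PowerSeries.map φ (α ^ q)) (PowerSeries.map φ h)
    (PowerSeries.map φ ι) (φ v) d (P ^ (k + 1)) (P ^ k * q)
    (by rw [show itr f (k + 1) = f.subst α from rfl, hsplit]; simp [hv])
    (hser _ _ hι)
    (fun i hi => by rw [coeff_map]; exact Ideal.mem_map_of_mem φ (hg1 i hi))
    (by rw [coeff_map]; exact hunit _ _ hg2)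
    (fun i hi => by rw [coeff_map]; exact Ideal.mem_map_of_mem φ (hz1 i hi))
    (by rw [coeff_map]; exact hunit _ _ hz2)
    (by rw [pow_succ]; exact Nat.mul_lt_mul_of_pos_left hqP hPk)
    (by
      intro N m
      obtain ⟨x, hx⟩ := H N m
      refine ⟨fun j => ∑ ab ∈ antidiagonal j, coeff ab.1 (α ^ (d * (q - 1))) • x ab.2,
        fun i hi => ?_⟩
      have hpow : (α ^ q) ^ d = α ^ (d * (q - 1)) * α ^ d := by
        rw [← pow_mul, ← pow_add]
        congr 1
        obtain ⟨q', rfl⟩ := Nat.exists_eq_succ_of_ne_zero hq.ne'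
        simp only [Nat.succ_eq_add_one, Nat.add_sub_cancel]
        ring
      rw [← map_pow, coeff_map, hφ, hpow, coeff_mul, Finset.sum_smul]
      simp only [coeff_map, hφ, smul_sum, ← mul_smul]
      have h1 : ∑ ab ∈ antidiagonal i, (coeff ab.1 (α ^ (d * (q - 1))) * coeff ab.2 (α ^ d)) • m =
          ∑ ab ∈ antidiagonal i, ∑ cd ∈ antidiagonal ab.2,
            (coeff ab.1 (α ^ (d * (q - 1))) * coeff cd.1 (itr f (k + 1))) • x cd.2 := by
        refine sum_congr rfl fun ab hab => ?_
        rw [mul_smul, hx ab.2 (by have := mem_antidiagonal.1 hab; omega), smul_sum]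
        simp only [mul_smul]
      rw [h1, sum_sigma', sum_sigma']
      refine sum_nbij' (fun t => ⟨(t.2.1, t.1.1 + t.2.2), (t.1.1, t.2.2)⟩)
        (fun t => ⟨(t.2.1, t.1.1 + t.2.2), (t.1.1, t.2.2)⟩) ?_ ?_ ?_ ?_ ?_
      · rintro ⟨⟨a, b⟩, c, d⟩ ht
        simp only [mem_sigma, mem_antidiagonal] at ht ⊢
        exact ⟨by omega, trivial⟩
      · rintro ⟨⟨a, b⟩, c, d⟩ ht
        simp only [mem_sigma, mem_antidiagonal] at ht ⊢
        exact ⟨by omega, trivial⟩
      · rintro ⟨⟨a, b⟩, c, d⟩ ht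
        simp only [mem_sigma, mem_antidiagonal] at ht ⊢
        obtain ⟨h1, rfl⟩ := ht
        rfl
      · rintro ⟨⟨a, b⟩, c, d⟩ ht
        simp only [mem_sigma, mem_antidiagonal] at ht ⊢
        obtain ⟨h1, rfl⟩ := ht
        rfl
      · rintro ⟨⟨a, b⟩, c, d⟩ ht
        simp only [mul_comm])
    w (hmap I w hI) m
  rwa [← map_pow, hφ] at hres

end Modules

end Vale.Agent.P241.H373
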